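import Vale.Agent.P155Z.ITO.Stp
import Vale.Agent.P155Z.SI

/-!
# P155, block LSI: the Riemann sums of the array which is integrated over the point
-/

namespace Vale.Agent.P155.Tree.Fub

open MeasureTheory Filter Topology ProbabilityTheory Set Vale.Agent.P164 Ito

section det

variable {Θ : Type} {W : Θ → ℝ → ℝ} {η s : ℝ} {φ : ℂ → ℝ}

/-- alive at height at least `η`, jointly -/
def AJ (W : Θ → ℝ → ℝ) (η s : ℝ) : Set (Θ × ℂ) :=
  {p | p.2 ∈ loewnerDomain (W p.1) s ∧ η ≤ (Zf (W p.1) p.2 s).im}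

/-- `1 / Z` on `AJ` -/
noncomputable def az (W : Θ → ℝ → ℝ) (η s : ℝ) : Θ × ℂ → ℂ :=
  (AJ W η s).indicator fun p => (Zf (W p.1) p.2 s)⁻¹

theorem AJ_anti (s t : ℝ) (hs : 0 ≤ s) (hst : s ≤ t) : AJ W η t ⊆ AJ W η s := fun _ h =>
  ⟨dom_mono hst h.1, h.2.trans (im_le_of_le hs hst h.1)⟩

theorem norm_az (hη : 0 < η) (p : Θ × ℂ) : ‖az W η s p‖ ≤ 1 / η := by
  by_cases h : p ∈ AJ W η s
  · rw [az, indicator_of_mem h, norm_inv, one_div]
    exact inv_anti₀ hη (h.2.trans ((le_abs_self _).trans (Complex.abs_im_le_norm _)))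
  · rw [az, indicator_of_notMem h, norm_zero]
    positivity

theorem norm_az_im (hη : 0 < η) (p : Θ × ℂ) : ‖(az W η s p).im‖ ≤ 1 / η :=
  (Complex.abs_im_le_norm _).trans (norm_az hη p)

theorem meas_AJ [MeasurableSpace Θ] (hs : 0 ≤ s) (hc : ∀ ω, Continuous (W ω))
    (hW : ∀ u ∈ Icc 0 s, Measurable fun ω => W ω u) :
    MeasurableSet (AJ W η s) ∧ Measurable (az W η s) := by
  obtain ⟨h1, h2, -⟩ := meas Θ _ W s hs hc hW
  have h3 : MeasurableSet (AJ W η s) :=
    h1.inter (measurableSet_le measurable_const (Complex.measurable_im.comp h2))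
  exact ⟨h3, h2.inv.indicator h3⟩

theorem meas_az1 (hs : 0 ≤ s) (ω : Θ) (hc : Continuous (W ω)) :
    MeasurableSet {w | (ω, w) ∈ AJ W η s} ∧ Measurable fun w => az W η s (ω, w) :=
  have h := meas_AJ (W := fun _ : Unit => W ω) (η := η) hs (fun _ => hc) fun _ _ => measurable_const
  ⟨measurable_prodMk_left (x := ()) h.1, h.2.comp (measurable_prodMk_left (x := ()))⟩

theorem th_eq (hs : 0 ≤ s) (ω : Θ) (hc : Continuous (W ω)) :
    th (W ω) φ η s = ∫ w, φ w * (az W η s (ω, w)).im := by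
  refine (integral_indicator (meas_az1 hs ω hc).1).symm.trans
    (integral_congr_ae (Eventually.of_forall fun w => ?_))
  by_cases h : (ω, w) ∈ AJ W η s
  · simp only [az, indicator_of_mem h, indicator_of_mem (s := {w | (ω, w) ∈ AJ W η s}) h]
  · simp [az, indicator_of_notMem h, indicator_of_notMem (s := {w | (ω, w) ∈ AJ W η s}) h]

theorem int_az (hη : 0 < η) (hi : Integrable φ) (hs : 0 ≤ s) (ω : Θ) (hc : Continuous (W ω)) :
    Integrable fun w => φ w * (az W η s (ω, w)).im :=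
  hi.mul_bdd (Complex.measurable_im.comp (meas_az1 hs ω hc).2).aestronglyMeasurable
    (Eventually.of_forall fun _ => norm_az_im hη _)

theorem norm_le (hη : 0 < η) (p : Θ × ℂ) : ‖φ p.2 * (az W η s p).im‖ ≤ |φ p.2| / η := by
  rw [norm_mul, div_eq_mul_one_div]
  exact mul_le_mul_of_nonneg_left (norm_az_im hη _) (norm_nonneg _)

theorem th_le {W : ℝ → ℝ} (hc : Continuous W) (hη : 0 < η) (hi : Integrable φ) (hs : 0 ≤ s) :
    |th W φ η s| ≤ (∫ w, |φ w|) / η := by
  rw [th_eq (W := fun _ : Unit => W) hs () hc, ← integral_div]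
  exact norm_integral_le_of_norm_le (hi.abs.div_const η)
    (Eventually.of_forall fun w => norm_le hη ((), w))

theorem meas_th [MeasurableSpace Θ] (hm : Measurable φ) (hs : 0 ≤ s) (hc : ∀ ω, Continuous (W ω))
    (hW : ∀ u ∈ Icc 0 s, Measurable fun ω => W ω u) : Measurable fun ω => th (W ω) φ η s := by
  simp only [fun ω => th_eq (φ := φ) (η := η) hs ω (hc ω)]
  exact ((hm.comp measurable_snd).mul (Complex.measurable_im.comp
    (meas_AJ hs hc hW).2)).stronglyMeasurable.integral_prod_right'.measurable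

theorem az_left (h0 : GEO0) (hη : 0 < η) (hs : 0 ≤ s) (p : Θ × ℂ) (hc : Continuous (W p.1)) :
    Tendsto (fun n => az W η (tt n ⌊s * 2 ^ n⌋₊) p) atTop (𝓝 (az W η s p)) := by
  have h1 : Tendsto (fun n => tt n ⌊s * 2 ^ n⌋₊) atTop (𝓝[Icc 0 s] s) :=
    tendsto_nhdsWithin_iff.2 ⟨tendsto_tt_floor hs, Eventually.of_forall fun n =>
      ⟨tt_nonneg _ _, tt_floor_le hs n⟩⟩
  by_cases h : p ∈ AJ W η s
  · rw [az, indicator_of_mem h]
    refine (((Zf_cont hc hs h.1 s ⟨hs, le_rfl⟩).tendsto.comp h1).inv₀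
      (Zf_ne_zero hs h.1)).congr fun n => ?_
    rw [az, indicator_of_mem (AJ_anti _ _ (tt_nonneg _ _) (tt_floor_le hs n) h)]
    rfl
  · rw [az, indicator_of_notMem h]
    rcases hs.eq_or_lt with rfl | hs'
    · refine tendsto_const_nhds.congr fun n => ?_
      rw [show tt n ⌊(0 : ℝ) * 2 ^ n⌋₊ = 0 by simp [tt], az, indicator_of_notMem h]
    obtain ⟨u, hu, h2⟩ : ∃ u ∈ Ico 0 s, p ∉ AJ W η u := by
      by_contra! h2
      have h3 := ((h0 _ hc p.2 (im_pos_of_dom le_rfl (h2 0 ⟨le_rfl, hs'⟩).1)).2.2.1 s η hs hη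
        fun u hu hus => ⟨⟨hu, (h2 u ⟨hu, hus⟩).1⟩, (h2 u ⟨hu, hus⟩).2.trans
          ((le_abs_self _).trans (Complex.abs_im_le_norm _))⟩).2
      have h4 := closure_Ico hs'.ne
      exact h ⟨h3, le_on_closure (fun u hu => (h2 u hu).2) continuousOn_const
        (h4 ▸ Complex.continuous_im.comp_continuousOn (Zf_cont hc hs h3)) (h4 ▸ ⟨hs, le_rfl⟩)⟩
    refine tendsto_const_nhds.congr' ?_
    filter_upwards [(tendsto_tt_floor hs).eventually (lt_mem_nhds hu.2)] with n hn
    rw [az, indicator_of_notMem fun h3 => h2 (AJ_anti _ _ hu.1 hn.le h3)]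

theorem th_left {W : ℝ → ℝ} (h0 : GEO0) (hc : Continuous W) (hη : 0 < η) (hi : Integrable φ)
    (hs : 0 ≤ s) :
    Tendsto (fun n => th W φ η (tt n ⌊s * 2 ^ n⌋₊)) atTop (𝓝 (th W φ η s)) := by
  simp only [fun n => th_eq (W := fun _ : Unit => W) (φ := φ) (η := η)
    (tt_nonneg n ⌊s * 2 ^ n⌋₊) () hc, th_eq (W := fun _ : Unit => W) hs () hc]
  exact tendsto_integral_of_dominated_convergence _
    (fun n => (int_az hη hi (tt_nonneg _ _) () hc).1) (hi.abs.div_const η)
    (fun n => Eventually.of_forall fun w => norm_le hη ((), w))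
    (Eventually.of_forall fun w => ((Complex.continuous_im.tendsto _).comp
      (az_left h0 hη hs ((), w) hc)).const_mul _)

theorem th_rie {W : ℝ → ℝ} (hR : RIE) (h0 : GEO0) (hc : Continuous W) (hη : 0 < η)
    (hi : Integrable φ) (T : ℕ) (c : ℂ) :
    Tendsto (fun n => 4 / 2 ^ n * ∑ i ∈ Finset.range (T * 2 ^ n),
      (c * (th W φ η (tt n i) : ℂ)) ^ 2) atTop
      (𝓝 (4 * c ^ 2 * ((∫ s in (0 : ℝ)..T, th W φ η s ^ 2 : ℝ) : ℂ))) := by
  have h1 := (hR (fun s => (th W φ η (max s 0) ^ 2 : ℝ)) (((∫ w, |φ w|) / η) ^ 2) T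
    (fun s => by
      rw [Complex.norm_real, norm_pow]
      exact pow_le_pow_left₀ (norm_nonneg _) (th_le hc hη hi (le_max_right _ _)) 2)
    (ae_restrict_of_forall_mem measurableSet_Icc fun s hs => by
      simp only [max_eq_left (tt_nonneg _ _), max_eq_left hs.1]
      exact (Complex.continuous_ofReal.tendsto _).comp ((th_left h0 hc hη hi hs.1).pow 2))).2
  rw [intervalIntegral.integral_ofReal, intervalIntegral.integral_congr
    (g := fun s => th W φ η s ^ 2) fun s hs => by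
      rw [uIcc_of_le T.cast_nonneg] at hs
      simp only [max_eq_left hs.1]] at h1
  refine (h1.const_mul (4 * c ^ 2)).congr fun n => ?_
  simp only [max_eq_left (tt_nonneg _ _), mul_pow, ← Finset.mul_sum]
  push_cast
  ring

end det

variable {Θ : Type} [m : MeasurableSpace Θ] {P : Measure Θ}

/-- alive at height at least `η` -/
def EH (S : Sys P) (w : ℂ) (η s : ℝ) : Set Θ :=
  {ω | w ∈ loewnerDomain (S.W ω) s ∧ η ≤ (Zf (S.W ω) w s).im}

variable (S : Sys P) {η : ℝ} {φ : ℂ → ℝ}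

theorem stp_EH (w : ℂ) (η : ℝ) : Stp S w η (EH S w η) :=
  ⟨fun s hs => @measurable_prodMk_right Θ ℂ (S.F s) _ w _
    (@meas_AJ Θ S.W η s (S.F s) hs (contW S) fun _ hu => adW S hu.2).1,
    fun s t hs hst ω h => AJ_anti (W := S.W) s t hs hst (a := (ω, w)) h, fun _ _ _ h => h⟩

theorem mW (u : ℝ) : Measurable fun ω => S.W ω u := (adW S le_rfl).mono (S.F.le u) le_rfl

theorem mX (u : ℝ) : Measurable fun ω => S.X ω u := (S.ad u).mono (S.F.le u) le_rfl

theorem meas_N (η : ℝ) {T : ℝ} (hT : 0 ≤ T) :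
    Measurable fun p : Θ × ℂ => NN (S.X p.1) (S.O p.1) p.2 (last (EH S p.2 η) T p.1) := by
  have hl : Measurable (last (AJ S.W η) T) := measurable_last AJ_anti hT fun s hs =>
    (meas_AJ hs.1 (contW S) fun u _ => mW S u).1
  have hmem : ∀ p, last (AJ S.W η) T p ∈ Icc 0 T := fun p => ⟨last_nonneg, last_le hT⟩
  have hZ : Measurable fun p : Θ × ℂ => Zf (S.W p.1) p.2 (last (AJ S.W η) T p) := by
    have h := (joint_Z (T := T) (contW S) fun u _ => mW S u).comp
      ((hl.prodMk measurable_snd).prodMk measurable_fst)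
    convert h using 1
    exact funext fun p => (if_pos (hmem p)).symm
  have hX := measurable_at (V := fun p : Θ × ℂ => S.X p.1) (fun p => S.cont p.1)
    (fun u _ => (mX S u).comp measurable_fst) hl hmem
  exact hZ.clog.sub (hZ.add (Complex.measurable_ofReal.comp hX)).clog

theorem arr_th (hη : 0 < η) (hm : Measurable φ) (hi : Integrable φ) (c : ℂ) :
    Arr S.toBSys fun n i ω => c * (th (S.W ω) φ η (tt n i) : ℂ) := by
  refine ⟨fun n i => Measurable.const_mul (Complex.measurable_ofReal.comp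
    (@meas_th Θ S.W η _ φ (S.F (tt n i)) hm (tt_nonneg n i) (contW S) fun _ hu => adW S hu.2)) c,
    ‖c‖ * ((∫ w, |φ w|) / η), fun n i ω => ?_⟩
  rw [norm_mul, Complex.norm_real]
  exact mul_le_mul_of_nonneg_left (th_le (contW S ω) hη hi (tt_nonneg n i)) (norm_nonneg c)

theorem tim_of_L1 [IsFiniteMeasure P] {f : ℕ → Θ → ℂ} {g : Θ → ℂ} {h : ℕ → Θ → ℝ}
    (hi : ∀ n, Integrable (h n) P) (hle : ∀ n ω, ‖f n ω - g ω‖ ≤ h n ω)
    (ht : Tendsto (fun n => ∫ ω, h n ω ∂P) atTop (𝓝 0)) : TendstoInMeasure P f atTop g := by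
  refine tendstoInMeasure_iff_measureReal_norm.2 fun ε hε => ?_
  refine squeeze_zero (fun _ => measureReal_nonneg) (fun n => ?_) (by simpa using ht.div_const ε)
  rw [le_div_iff₀' hε]
  exact (mul_le_mul_of_nonneg_left (measureReal_mono fun ω h1 => le_trans h1 (hle n ω)) hε.le).trans
    (mul_meas_ge_le_integral_of_nonneg
      (Eventually.of_forall fun ω => (norm_nonneg _).trans (hle n ω)) (hi n) ε)

theorem im_le (x o : ℝ → ℝ) (w : ℂ) (t : ℝ) : ‖(NN x o w t).im‖ ≤ 8 := by
  rw [NN, Complex.sub_im, Complex.log_im, Complex.log_im]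
  exact (norm_sub_le _ _).trans ((add_le_add (Complex.abs_arg_le_pi _)
    (Complex.abs_arg_le_pi _)).trans (by linarith [Real.pi_le_four]))

/-- the error -/
noncomputable def uu (η : ℝ) (T n : ℕ) (p : Θ × ℂ) : ℝ :=
  (RS S.X (arr S p.2 (EH S p.2 η)) T n p.1).im +
    (NN (S.X p.1) (S.O p.1) p.2 (last (EH S p.2 η) T p.1)).im

theorem meas_uu (η : ℝ) (T n : ℕ) : Measurable (uu S η T n) :=
  (Complex.measurable_im.comp (Finset.measurable_sum _ fun i _ =>
    (meas_AJ (η := η) (tt_nonneg n i) (contW S) fun u _ => mW S u).2.mul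
      (Complex.measurable_ofReal.comp (((mX S _).sub (mX S _)).comp measurable_fst)))).add
    (Complex.measurable_im.comp (meas_N S η T.cast_nonneg))

theorem uu_one (hS : SI) (hI : ITO) (hη : 0 < η) (T : ℕ) {w : ℂ} (hw : w ∈ HH) :
    (∀ n, Integrable (fun ω => uu S η T n (ω, w)) P ∧
      ∫ ω, ‖uu S η T n (ω, w)‖ ∂P ≤ 1 + (2 * (4 * T * (1 / η) ^ 2) + 128)) ∧
    Tendsto (fun n => ∫ ω, ‖uu S η T n (ω, w)‖ ∂P) atTop (𝓝 0) := by
  have := S.prob
  obtain ⟨h1, h2⟩ := hI Θ m P S w η _ hw hη (stp_EH S w η) T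
  have h3 := (hS Θ m P S.toBSys _ h1 T).1
  have s1 := fun n => (memLp_two_iff_integrable_sq_norm (h3 n).2.1.1).1 (h3 n).2.1
  have h4 : ∀ n, ∫ ω, ‖RS S.X (arr S w (EH S w η)) T n ω‖ ^ 2 ∂P ≤ 4 * T * (1 / η) ^ 2 := fun n => by
    rw [(h3 n).2.2]
    refine (Real.le_norm_self _).trans ((norm_integral_le_of_norm_le_const (μ := P)
      (C := 4 * T * (1 / η) ^ 2) (Eventually.of_forall fun ω => ?_)).trans_eq
      (by rw [probReal_univ, mul_one]))
    rw [Real.norm_of_nonneg (by positivity)]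
    refine (mul_le_mul_of_nonneg_left (Finset.sum_le_card_nsmul _ _ ((1 / η) ^ 2) fun i _ =>
      pow_le_pow_left₀ (norm_nonneg _) (norm_az (W := S.W) hη (ω, w)) 2)
      (by positivity)).trans_eq ?_
    simp only [Finset.card_range, nsmul_eq_mul]
    push_cast
    field_simp
  have h5 : ∀ n, MemLp (fun ω => uu S η T n (ω, w)) 2 P := fun n => (h3 n).2.1.im.add
    (MemLp.of_bound (Complex.measurable_im.comp ((meas_N S η T.cast_nonneg).comp
      measurable_prodMk_right)).aestronglyMeasurable 8 (Eventually.of_forall fun ω => im_le _ _ _ _))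
  have s2 := fun n => (memLp_two_iff_integrable_sq_norm (h5 n).1).1 (h5 n)
  have h6 : ∀ n, ∫ ω, ‖uu S η T n (ω, w)‖ ^ 2 ∂P ≤ 2 * (4 * T * (1 / η) ^ 2) + 128 := fun n => by
    refine (integral_mono (s2 n) (((s1 n).const_mul 2).add (integrable_const 128))
      fun ω => ?_).trans ?_
    · have h7 := pow_le_pow_left₀ (abs_nonneg _)
        (Complex.abs_im_le_norm (RS S.X (arr S w (EH S w η)) T n ω)) 2
      have h8 := pow_le_pow_left₀ (norm_nonneg _)
        (im_le (S.X ω) (S.O ω) w (last (EH S w η) T ω)) 2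
      simp only [uu, Pi.add_apply, Real.norm_eq_abs, sq_abs] at h7 h8 ⊢
      nlinarith [sq_nonneg ((RS S.X (arr S w (EH S w η)) T n ω).im -
        (NN (S.X ω) (S.O ω) w (last (EH S w η) T ω)).im)]
    · simp only [Pi.add_apply]
      rw [integral_add ((s1 n).const_mul 2) (integrable_const _), integral_const_mul]
      simpa using h4 n
  refine ⟨fun n => ⟨(h5 n).integrable one_le_two, ?_⟩, tendsto_of_subseq_tendsto fun ns hns => ?_⟩
  · refine (integral_mono ((h5 n).integrable one_le_two).norm ((integrable_const 1).add (s2 n))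
      fun ω => ?_).trans ?_
    · simp only [Pi.add_apply]
      nlinarith [sq_nonneg (‖uu S η T n (ω, w)‖ - 1)]
    · simp only [Pi.add_apply]
      rw [integral_add (integrable_const _) (s2 n)]
      simpa using h6 n
  · obtain ⟨ms, -, h7⟩ := (h2.comp hns).exists_seq_tendsto_ae
    refine ⟨ms, ?_⟩
    simpa using SIa.tendsto_int (g := fun _ => 0) (fun n => (h5 (ns (ms n))).norm)
      (h7.mono fun ω h => by
        simpa [uu] using (((Complex.continuous_im.tendsto _).comp h).add_const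
          (NN (S.X ω) (S.O ω) w (last (EH S w η) T ω)).im).norm)
      fun n => by simpa only [norm_norm] using h6 _

theorem fub (hS : SI) (hI : ITO) (hη : 0 < η) (hm : Measurable φ) (hi : Integrable φ)
    (h0 : ∀ w, w ∉ HH → φ w = 0) (T : ℕ) (c : ℂ) :
    TendstoInMeasure P (RS S.X (fun n i ω => c * (th (S.W ω) φ η (tt n i) : ℂ)) T) atTop fun ω =>
      -c * ((∫ w, φ w * (NN (S.X ω) (S.O ω) w (last (EH S w η) T ω)).im : ℝ) : ℂ) := by
  have := S.prob
  have h1 : ∀ n, Measurable fun p : Θ × ℂ => φ p.2 * uu S η T n p := fun n =>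
    (hm.comp measurable_snd).mul (meas_uu S η T n)
  have h2 := fun n => (h1 n).norm.stronglyMeasurable.integral_prod_left' (μ := P)
  have h3 : ∀ n w, ‖∫ ω, ‖φ w * uu S η T n (ω, w)‖ ∂P‖ ≤
      ‖φ w‖ * (1 + (2 * (4 * T * (1 / η) ^ 2) + 128)) := fun n w => by
    by_cases hw : w ∈ HH
    · simp only [norm_mul, integral_const_mul, norm_norm]
      rw [Real.norm_of_nonneg (integral_nonneg fun _ => norm_nonneg _)]
      exact mul_le_mul_of_nonneg_left ((uu_one S hS hI hη T hw).1 n).2 (norm_nonneg _)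
    · simp [h0 w hw]
  have h4 : ∀ n, Integrable (fun p : Θ × ℂ => φ p.2 * uu S η T n p) (P.prod volume) := fun n =>
    (integrable_prod_iff' (h1 n).aestronglyMeasurable).2 ⟨Eventually.of_forall fun w => by
      by_cases hw : w ∈ HH
      · exact ((uu_one S hS hI hη T hw).1 n).1.const_mul (φ w)
      · simp [h0 w hw], (hi.norm.mul_const _).mono' (h2 n).aestronglyMeasurable
        (Eventually.of_forall (h3 n))⟩
  refine tim_of_L1 (h := fun n ω => ‖c‖ * ∫ w, ‖φ w * uu S η T n (ω, w)‖)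
    (fun n => (h4 n).integral_norm_prod_left.const_mul _) (fun n ω => ?_) ?_
  · have h5 := fun i => (int_az hη hi (tt_nonneg n i) ω (contW S ω)).mul_const (dx (S.X ω) n i)
    have h6 : RS S.X (fun n i ω => c * (th (S.W ω) φ η (tt n i) : ℂ)) T n ω - -c *
        ((∫ w, φ w * (NN (S.X ω) (S.O ω) w (last (EH S w η) T ω)).im : ℝ) : ℂ) =
        c * ((∫ w, φ w * uu S η T n (ω, w) : ℝ) : ℂ) := by
      have e : ∀ w, φ w * uu S η T n (ω, w) = ∑ i ∈ Finset.range (T * 2 ^ n),
          φ w * (az S.W η (tt n i) (ω, w)).im * dx (S.X ω) n i +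
          φ w * (NN (S.X ω) (S.O ω) w (last (EH S w η) T ω)).im := fun w => by
        simp only [uu, RS, Complex.im_sum, Complex.im_mul_ofReal, mul_add, Finset.mul_sum, mul_assoc]
        rfl
      have h7 : Integrable fun w =>
          φ w * (NN (S.X ω) (S.O ω) w (last (EH S w η) T ω)).im := hi.mul_bdd
        (Complex.measurable_im.comp ((meas_N S η T.cast_nonneg).comp
          (measurable_prodMk_left (x := ω)))).aestronglyMeasurable
        (Eventually.of_forall fun w => im_le _ _ _ _)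
      simp only [e]
      rw [integral_add (integrable_finsetSum _ fun i _ => h5 i) h7,
        integral_finsetSum _ fun i _ => h5 i]
      simp only [integral_mul_const, ← th_eq (tt_nonneg n _) ω (contW S ω)]
      simp only [RS, mul_assoc, ← Finset.mul_sum]
      push_cast
      ring
    rw [h6, norm_mul, Complex.norm_real]
    exact mul_le_mul_of_nonneg_left (norm_integral_le_integral_norm _) (norm_nonneg c)
  · have h5 := (tendsto_integral_of_dominated_convergence (f := fun _ => 0) _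
      (fun n => (h2 n).aestronglyMeasurable) (hi.norm.mul_const _)
      (fun n => Eventually.of_forall (h3 n)) (Eventually.of_forall fun w => by
        by_cases hw : w ∈ HH
        · simpa [integral_const_mul] using (uu_one S hS hI hη T hw).2.const_mul |φ w|
        · simp [h0 w hw])).const_mul ‖c‖
    rw [integral_zero, mul_zero] at h5
    refine h5.congr fun n => ?_
    rw [integral_const_mul, integral_integral_swap (f := fun ω w => ‖φ w * uu S η T n (ω, w)‖)
      (h4 n).norm]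

end Vale.Agent.P155.Tree.Fub
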